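import Crest.Agent.R12.Iface
import Crest.Agent.R12.Base.Lat
import Crest.Agent.R12.Base.Div

/-! Row 12, block T3: the energy of the model.  Prefix for helper lemmas: `t3_`. -/

set_option autoImplicit false

namespace Crest.Agent.R12

open Crest.Agent.R17
open scoped ComplexConjugate Classical

/-- plain sum with a mask -/
noncomputable def t3_P (a : ℝ) (h : O) (M : ℝ) : ℂ :=
  ∑' n : Pr, if IsCoprime (n : O) h then (LW a M (nm n) : ℂ) else 0

/-- the same over squarefree elements -/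
noncomputable def t3_Q (a : ℝ) (h : O) (M : ℝ) : ℂ :=
  ∑' c : Pr, if Squarefree (c : O) then (if IsCoprime (c : O) h then (LW a M (nm c) : ℂ) else 0) else 0

/-- the same with the weight `‖TC x‖²` -/
noncomputable def t3_R (a : ℝ) (h : O) (M : ℝ) : ℂ :=
  ∑' x : Pr, if IsCoprime (x : O) h then ((‖TC x‖ ^ 2 : ℝ) : ℂ) * (LW a M (nm x) : ℂ) else 0

theorem t3_LNt {a : ℝ} (ha : 0 < a) (h1 : a ≤ 1) : ‖LNt a 1‖ ≤ √(2 * Real.pi) * Real.exp (1 / 2) := by
  rw [norm_LNt ha.le]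
  simp only [Complex.one_re, Complex.one_im, one_pow, mul_one, ne_eq, OfNat.ofNat_ne_zero,
    not_false_eq_true, zero_pow, mul_zero, Real.exp_zero]
  have h2 : a ^ 2 / 2 ≤ 1 / 2 := by nlinarith
  have h3 := Real.exp_le_exp.2 h2
  have h4 : √(2 * Real.pi) * a ≤ √(2 * Real.pi) := mul_le_of_le_one_right (Real.sqrt_nonneg _) h1
  exact mul_le_mul h4 h3 (Real.exp_pos _).le (Real.sqrt_nonneg _)

theorem t3_small : ∃ C : ℝ, 0 < C ∧ ∀ (a M : ℝ) (h : O), 0 < a → a ≤ 1 → 0 < M →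
    ‖t3_P a h M‖ ≤ C * M ^ 2 := by
  have hs : Summable fun n : Pr => nm n ^ (-(2 : ℝ)) := (summable_nm_rpow (σ := 2) (by norm_num)).Pr
  have h0 : 0 ≤ ∑' n : Pr, nm n ^ (-(2 : ℝ)) := tsum_nonneg fun n => Real.rpow_nonneg (nm_nonneg _) _
  refine ⟨Real.exp 2 * (∑' n : Pr, nm n ^ (-(2 : ℝ))) + 1, by positivity, fun a M h ha h1 hM => ?_⟩
  have hb : ‖t3_P a h M‖ ≤ Real.exp 2 * M ^ 2 * ∑' n : Pr, nm n ^ (-(2 : ℝ)) := by
    refine tsum_of_norm_bounded (hs.hasSum.mul_left (Real.exp 2 * M ^ 2)) fun n => ?_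
    have hn : 0 < nm (n : O) := nm_pos (Prim.ne_zero n.2)
    have h2 := norm_LN_le_rpow ha hM hn 0 2
    rw [LN_eq_LW] at h2
    have h3 : Real.exp (a ^ 2 * 2 ^ 2 / 2) ≤ Real.exp 2 := Real.exp_le_exp.2 (by nlinarith)
    have h4 : Real.exp (a ^ 2 * 2 ^ 2 / 2) * M ^ (2 : ℝ) * nm (n : O) ^ (-(2 : ℝ)) ≤
        Real.exp 2 * M ^ 2 * nm (n : O) ^ (-(2 : ℝ)) := by
      rw [Real.rpow_two]
      gcongr
    split_ifs
    · exact h2.trans h4
    · rw [norm_zero]; positivity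
  nlinarith [sq_nonneg M]

/-- the plain sum, uniformly in the centre -/
theorem t3_err : ∃ C : ℝ, 0 < C ∧ ∀ (a : ℝ) (h : O), 0 < a → a ≤ 1 → h ≠ 0 → ∀ M : ℝ, 0 < M →
    ‖t3_P a h M - ((rho0 * Phi h : ℝ) : ℂ) * LNt a 1 * M‖ ≤ C * dn h * M ^ (5 / 6 : ℝ) := by
  obtain ⟨C₁, hC₁, H₁⟩ := plain_asymp 0
  obtain ⟨C₂, hC₂, H₂⟩ := t3_small
  have hr := rho0_pos
  set K := rho0 * (√(2 * Real.pi) * Real.exp (1 / 2)) with hK
  have hK0 : 0 ≤ K := by positivity
  refine ⟨2 * C₁ + C₂ + K, by positivity, fun a h ha h1 hh M hM => ?_⟩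
  have hd := one_le_dn hh
  have hp : 0 < M ^ (5 / 6 : ℝ) := Real.rpow_pos_of_pos hM _
  rcases le_total 1 M with hM1 | hM1
  · have h2 := H₁ a M 0 h ha h1 hM hh
    simp only [zpow_zero, one_mul, LN_eq_LW, if_true, Complex.ofReal_zero, mul_zero, add_zero,
      abs_zero, mul_one] at h2
    have e : ((rho0 * Phi h : ℝ) : ℂ) * LNt a 1 * M = ((rho0 * Phi h * M : ℝ) : ℂ) * LNt a 1 := by
      push_cast; ring
    rw [e]
    refine h2.trans ?_
    have h3 : √M ≤ M ^ (5 / 6 : ℝ) := by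
      rw [Real.sqrt_eq_rpow]
      exact Real.rpow_le_rpow_of_exponent_le hM1 (by norm_num)
    have h4 : 1 ≤ M ^ (5 / 6 : ℝ) := Real.one_le_rpow hM1 (by norm_num)
    calc C₁ * dn h * (√M + 1) ≤ C₁ * dn h * (2 * M ^ (5 / 6 : ℝ)) := by gcongr; linarith
      _ = 2 * C₁ * dn h * M ^ (5 / 6 : ℝ) := by ring
      _ ≤ _ := by gcongr; linarith
  · have h2 := H₂ a M h ha h1 hM
    have h3 : M ≤ M ^ (5 / 6 : ℝ) := by
      simpa using Real.rpow_le_rpow_of_exponent_ge hM hM1 (show (5 / 6 : ℝ) ≤ 1 by norm_num)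
    have h4 : M ^ 2 ≤ M ^ (5 / 6 : ℝ) := le_trans (by nlinarith) h3
    have h5 : ‖((rho0 * Phi h : ℝ) : ℂ) * LNt a 1 * M‖ ≤ K * M := by
      rw [norm_mul, norm_mul, Complex.norm_real, Complex.norm_real, Real.norm_of_nonneg hM.le,
        Real.norm_of_nonneg (mul_pos hr (Phi_pos h)).le]
      have := t3_LNt ha h1
      have h6 : rho0 * Phi h ≤ rho0 := mul_le_of_le_one_right hr.le (Phi_le_one h)
      rw [hK]
      gcongr
    refine (norm_sub_le _ _).trans ?_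
    calc _ ≤ C₂ * M ^ (5 / 6 : ℝ) + K * M ^ (5 / 6 : ℝ) := by
          have := mul_le_mul_of_nonneg_left h4 hC₂.le
          have := mul_le_mul_of_nonneg_left h3 hK0
          linarith
      _ = (C₂ + K) * 1 * M ^ (5 / 6 : ℝ) := by ring
      _ ≤ _ := by gcongr; linarith

/-- transfer of an asymptotic formula through a weighted sum of dilates -/
theorem t3_step {ι : Type*} {F : ℝ → ℂ} {K : ℂ} {E : ℝ} (hE : 0 ≤ E)
    (hF : ∀ M : ℝ, 0 < M → ‖F M - K * M‖ ≤ E * M ^ (5 / 6 : ℝ)) {w : ι → ℂ} {q u : ι → ℝ}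
    (hq : ∀ n, 1 ≤ q n) (hu : Summable u) (hw : ∀ n, ‖w n‖ * q n ^ (-(5 / 6 : ℝ)) ≤ u n)
    (M : ℝ) (hM : 0 < M) :
    ‖∑' n, w n * F (M / q n) - K * (∑' n, w n / q n) * M‖ ≤ E * (∑' n, u n) * M ^ (5 / 6 : ℝ) := by
  have hq0 : ∀ n, 0 < q n := fun n => one_pos.trans_le (hq n)
  have h1 : ∀ n, ‖w n * (F (M / q n) - K * (M / q n : ℝ))‖ ≤ E * M ^ (5 / 6 : ℝ) * u n := by
    intro n
    have h2 := hF _ (div_pos hM (hq0 n))
    rw [Real.div_rpow hM.le (hq0 n).le, div_eq_mul_inv (M ^ (5 / 6 : ℝ)), ← Real.rpow_neg (hq0 n).le] at h2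
    rw [norm_mul]
    calc _ ≤ ‖w n‖ * (E * (M ^ (5 / 6 : ℝ) * q n ^ (-(5 / 6 : ℝ)))) := by gcongr
      _ = E * M ^ (5 / 6 : ℝ) * (‖w n‖ * q n ^ (-(5 / 6 : ℝ))) := by ring
      _ ≤ _ := by gcongr; exact hw n
  have h2 : Summable fun n => w n / (q n : ℂ) := by
    refine Summable.of_norm_bounded hu fun n => le_trans ?_ (hw n)
    rw [norm_div, Complex.norm_real, Real.norm_of_nonneg (hq0 n).le, div_eq_mul_inv,
      ← Real.rpow_neg_one]
    exact mul_le_mul_of_nonneg_left (Real.rpow_le_rpow_of_exponent_le (hq n) (by norm_num))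
      (norm_nonneg _)
  have h3 : Summable fun n => w n * (F (M / q n) - K * (M / q n : ℝ)) :=
    Summable.of_norm_bounded (hu.mul_left _) h1
  have h4 : ∑' n, w n * F (M / q n) =
      ∑' n, w n * (F (M / q n) - K * (M / q n : ℝ)) + K * M * ∑' n, w n / q n := by
    rw [← tsum_mul_left, ← h3.tsum_add (h2.mul_left _)]
    refine tsum_congr fun n => ?_
    push_cast
    ring
  rw [h4, show ∀ x y : ℂ, x + K * M * y - K * y * M = x from fun x y => by ring]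
  refine (tsum_of_norm_bounded (hu.hasSum.mul_left _) h1).trans_eq (by ring)

/-- the squarefree sieve -/
theorem t3_sieve {a M : ℝ} (ha : 0 < a) (hM : 0 < M) (h : O) :
    t3_Q a h M = ∑' e : Pr, (if IsCoprime (e : O) h then mu e else 0) * t3_P a h (M / nm e ^ 2) := by
  set v : O → ℂ := fun c => if IsCoprime c h then (LW a M (nm c) : ℂ) else 0 with hv
  have hv1 : ∀ c, ‖v c‖ ≤ LW a M (nm c) := by
    intro c
    simp only [hv]
    split_ifs
    · rw [Complex.norm_real, Real.norm_of_nonneg (LW_pos _ _ _).le]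
    · rw [norm_zero]; exact (LW_pos _ _ _).le
  have s1 : Summable fun c : Pr => nm c ^ (1 : ℝ) * LW a M (nm c) := (summable_LW ha hM 1).Pr
  have s2 : Summable fun e : Pr => nm e ^ (-(2 : ℝ)) := (summable_nm_rpow (σ := 2) (by norm_num)).Pr
  have n1 : ∀ c : Pr, 0 ≤ nm c ^ (1 : ℝ) * LW a M (nm c) := fun c =>
    mul_nonneg (Real.rpow_nonneg (nm_nonneg _) _) (LW_pos _ _ _).le
  have n2 : ∀ e : Pr, 0 ≤ nm e ^ (-(2 : ℝ)) := fun e => Real.rpow_nonneg (nm_nonneg _) _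
  have hs : Summable (Function.uncurry fun (c e : Pr) =>
      if (e : O) ^ 2 ∣ (c : O) then mu e * v c else 0) := by
    refine Summable.of_norm_bounded (s1.mul_of_nonneg s2 n1 n2) fun p => ?_
    obtain ⟨c, e⟩ := p
    simp only [Function.uncurry]
    split_ifs with hd
    · have h1 := nm_le_of_dvd hd (Prim.ne_zero c.2)
      have h2 : 0 < nm (e : O) := nm_pos (Prim.ne_zero e.2)
      rw [nm_pow] at h1
      have h3 : 1 ≤ nm (c : O) * nm (e : O) ^ (-(2 : ℝ)) := by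
        rw [Real.rpow_neg h2.le, Real.rpow_two, ← div_eq_mul_inv, le_div_iff₀ (by positivity), one_mul]
        exact h1
      rw [norm_mul, Real.rpow_one]
      calc _ ≤ 1 * LW a M (nm c) := mul_le_mul (norm_mu_le _) (hv1 _) (norm_nonneg _) zero_le_one
        _ ≤ (nm (c : O) * nm (e : O) ^ (-(2 : ℝ))) * LW a M (nm c) :=
            mul_le_mul_of_nonneg_right h3 (LW_pos _ _ _).le
        _ = _ := by ring
    · rw [norm_zero]; exact mul_nonneg (n1 c) (n2 e)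
  have e1 : ∀ c : Pr, (if Squarefree (c : O) then v c else 0) =
      ∑' e : Pr, if (e : O) ^ 2 ∣ (c : O) then mu e * v c else 0 := by
    intro c
    have hc : Prim (c : O) := c.2
    rw [tsum_Pr_eq (fun e : O => if e ^ 2 ∣ (c : O) then mu e * v c else 0),
      tsum_eq_sum (s := pdiv c)]
    · have := congrArg (· * v c) (sum_mu_sq hc)
      simp only [Finset.sum_mul, ite_mul, zero_mul, one_mul] at this
      rw [← this]
      refine Finset.sum_congr rfl fun e he => ?_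
      rw [if_pos (pra_of_mem_pdiv he).1]
    · intro e he
      split_ifs with h1 h2
      · exact absurd ((mem_pdiv hc.ne_zero).2 ⟨h1, (dvd_pow_self e two_ne_zero).trans h2⟩) he
      · rfl
      · rfl
  have e2 : ∀ e : Pr, (∑' c : Pr, if (e : O) ^ 2 ∣ (c : O) then mu e * v c else 0) =
      (if IsCoprime (e : O) h then mu e else 0) * t3_P a h (M / nm e ^ 2) := by
    intro e
    rw [tsum_Pr_dvd (Prim.pow e.2 2) (fun c => mu e * v c), t3_P, ← tsum_mul_left]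
    refine tsum_congr fun m => ?_
    simp only [hv, IsCoprime.mul_left_iff, IsCoprime.pow_left_iff two_pos, nm_mul, nm_pow, LW_mul_arg]
    by_cases h1 : IsCoprime (e : O) h <;> by_cases h2 : IsCoprime (m : O) h <;> simp [h1, h2]
  rw [t3_Q, tsum_congr e1, ← hs.tsum_comm, tsum_congr e2]

/-- extraction of the cubes -/
theorem t3_cubes {a M : ℝ} (ha : 0 < a) (hM : 0 < M) (h : O) :
    t3_R a h M = ∑' b : Pr, (if IsCoprime (b : O) h then (nm b : ℂ) else 0) * t3_Q a h (M / nm b ^ 3) := by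
  have hs : Summable fun x : Pr =>
      if IsCoprime (x : O) h then ((‖TC x‖ ^ 2 : ℝ) : ℂ) * (LW a M (nm x) : ℂ) else 0 := by
    have h1 := summable_LW_pr ha hM (f := fun x => ((‖TC x‖ ^ 2 : ℝ) : ℂ)) (M := 1) (θ := 1 / 3)
      fun n _ => by
        rw [Complex.norm_real, Real.norm_of_nonneg (sq_nonneg _), one_mul,
          show (1 / 3 : ℝ) = 1 / 6 * 2 by norm_num, Real.rpow_mul (nm_nonneg _), Real.rpow_two]
        exact pow_le_pow_left₀ (norm_nonneg _) (norm_TC_le n) 2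
    refine Summable.of_norm_bounded h1 fun x => ?_
    split_ifs
    · exact le_rfl
    · rw [norm_zero]; exact norm_nonneg _
  rw [t3_R, prc_gen (fun (_ c : Pr) => Squarefree (c : O)) (fun b c : Pr => c * b ^ 3) hs]
  · refine tsum_congr fun b => ?_
    rw [t3_Q, ← tsum_mul_left]
    refine tsum_congr fun c => ?_
    by_cases hc : Squarefree (c : O)
    · have h1 : ‖TC ((c : O) * (b : O) ^ 3)‖ ^ 2 = nm b := by
        rw [TC_eq ⟨c.2, hc⟩ b.2, norm_mul, norm_GG ⟨c.2, hc⟩, one_mul, Complex.norm_real,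
          Real.norm_of_nonneg (Real.sqrt_nonneg _), Real.sq_sqrt (nm_nonneg _)]
      simp only [if_pos hc, Submonoid.coe_mul, SubmonoidClass.coe_pow, h1, IsCoprime.mul_left_iff,
        IsCoprime.pow_left_iff three_pos, nm_mul, nm_pow, mul_comm (nm (c : O)), LW_mul_arg]
      by_cases h1 : IsCoprime (b : O) h <;> by_cases h2 : IsCoprime (c : O) h <;> simp [h1, h2]
    · simp only [if_neg hc, mul_zero]
  · intro b c b' c' hc hc' e
    have e' : (c : O) * (b : O) ^ 3 = (c' : O) * (b' : O) ^ 3 := by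
      simpa using congrArg (fun x : Pr => (x : O)) e
    obtain ⟨h1, h2⟩ := sqfree_cube_unique b.2 b'.2 hc hc' e'
    exact ⟨Subtype.ext h2, Subtype.ext h1⟩
  · intro n hn
    have h1 : TC n ≠ 0 := by
      intro h0
      simp [h0] at hn
    obtain ⟨c, b, hc, hb, e⟩ := exists_of_TC_ne_zero h1
    exact ⟨⟨b, hb⟩, ⟨c, hc.1⟩, hc.2, Subtype.ext (by simpa using e.symm)⟩

theorem t3_anti {n : O} (hn : Prim n) (g : O → ℂ) : ∑ p ∈ anti n, g p.1 = ∑ d ∈ pdiv n, g d := by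
  refine Finset.sum_bij (fun p _ => p.1) (fun p hp => ?_) (fun p hp p' hp' e => ?_)
    (fun d hd => ?_) fun _ _ => rfl
  · obtain ⟨h1, -, h3⟩ := mem_anti.1 hp
    exact (mem_pdiv hn.ne_zero).2 ⟨h1, Dvd.intro _ h3⟩
  · obtain ⟨h1, -, h3⟩ := mem_anti.1 hp
    obtain ⟨-, -, h3'⟩ := mem_anti.1 hp'
    refine Prod.ext e (mul_left_cancel₀ h1.ne_zero ?_)
    rw [h3, ← h3', e]
  · obtain ⟨h1, h2⟩ := (mem_pdiv hn.ne_zero).1 hd
    obtain ⟨m, hm, e⟩ := h1.exists_mul hn h2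
    exact ⟨(d, m), mem_anti.2 ⟨h1, hm, e.symm⟩, rfl⟩

theorem t3_conv {f g : O → ℂ} (sf : Summable fun e : Pr => ‖f e‖) (sg : Summable fun e : Pr => ‖g e‖) :
    (∑' e : Pr, f e) * (∑' b : Pr, g b) = ∑' n : Pr, ∑ p ∈ anti n, f p.1 * g p.2 := by
  have h1 : Summable fun p : Pr × Pr => f p.1 * g p.2 :=
    summable_mul_of_summable_norm (f := fun e : Pr => f e) (g := fun e : Pr => g e) sf sg
  rw [← tsum_Pr_pairs (F := fun e b => f e * g b) h1]
  exact tsum_mul_tsum_of_summable_norm (f := fun e : Pr => f e) (g := fun e : Pr => g e) sf sg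

/-- Möbius inversion in absolutely convergent series -/
theorem t3_moeb (h : O) :
    (∑' e : Pr, (if IsCoprime (e : O) h then mu e else 0) / ((nm e ^ 2 : ℝ) : ℂ)) *
      (∑' b : Pr, (if IsCoprime (b : O) h then (nm b : ℂ) else 0) / ((nm b ^ 3 : ℝ) : ℂ)) = 1 := by
  have s2 : Summable fun e : Pr => nm e ^ (-(2 : ℝ)) := (summable_nm_rpow (σ := 2) (by norm_num)).Pr
  have hr : ∀ e : Pr, nm (e : O) ^ (-(2 : ℝ)) = 1 / nm (e : O) ^ 2 := fun e => by
    rw [Real.rpow_neg (nm_nonneg _), Real.rpow_two, one_div]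
  rw [t3_conv (f := fun e => (if IsCoprime e h then mu e else 0) / ((nm e ^ 2 : ℝ) : ℂ))
    (g := fun b => (if IsCoprime b h then (nm b : ℂ) else 0) / ((nm b ^ 3 : ℝ) : ℂ)),
    tsum_eq_single (1 : Pr)]
  · rw [Finset.sum_eq_single ((1 : O), (1 : O))]
    · simp [isCoprime_one_left]
    · intro p hp hne
      obtain ⟨h1, h2, h3⟩ := mem_anti.1 hp
      exact absurd (Prod.ext (h1.eq_one_of_isUnit (IsUnit.of_mul_eq_one _ h3))
        (h2.eq_one_of_isUnit (IsUnit.of_mul_eq_one_right _ h3))) hne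
    · intro hn
      exact absurd (mem_anti.2 ⟨prim_one, prim_one, by simp⟩) hn
  · intro n hn
    have hn' : (n : O) ≠ 1 := fun e => hn (Subtype.ext e)
    have e1 : ∀ p ∈ anti (n : O), (if IsCoprime p.1 h then mu p.1 else 0) / ((nm p.1 ^ 2 : ℝ) : ℂ) *
        ((if IsCoprime p.2 h then (nm p.2 : ℂ) else 0) / ((nm p.2 ^ 3 : ℝ) : ℂ)) =
        mu p.1 * ((if IsCoprime (n : O) h then 1 else 0) / ((nm n ^ 2 : ℝ) : ℂ)) := by
      intro p hp
      obtain ⟨h1, h2, h3⟩ := mem_anti.1 hp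
      have k1 : (nm p.1 : ℂ) ≠ 0 := Complex.ofReal_ne_zero.2 (nm_pos h1.ne_zero).ne'
      have k2 : (nm p.2 : ℂ) ≠ 0 := Complex.ofReal_ne_zero.2 (nm_pos h2.ne_zero).ne'
      simp only [← h3, IsCoprime.mul_left_iff, nm_mul]
      push_cast
      by_cases c1 : IsCoprime p.1 h <;> by_cases c2 : IsCoprime p.2 h <;> simp [c1, c2]
      field_simp
    rw [Finset.sum_congr rfl e1, ← Finset.sum_mul, t3_anti n.2 mu, sum_mu_pdiv n.2, if_neg hn', zero_mul]
  · refine Summable.of_nonneg_of_le (fun _ => norm_nonneg _) (fun e => ?_) s2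
    rw [hr, norm_div, Complex.norm_real, Real.norm_of_nonneg (sq_nonneg _)]
    refine div_le_div_of_nonneg_right ?_ (sq_nonneg _)
    split_ifs
    · exact norm_mu_le _
    · simp
  · refine Summable.of_nonneg_of_le (fun _ => norm_nonneg _) (fun e => ?_) s2
    have h2 : 0 < nm (e : O) := nm_pos (Prim.ne_zero e.2)
    rw [hr, norm_div, Complex.norm_real, Real.norm_of_nonneg (by positivity)]
    split_ifs
    · rw [Complex.norm_real, Real.norm_of_nonneg h2.le]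
      exact le_of_eq (by field_simp)
    · rw [norm_zero, zero_div]; positivity

/-- the second moment of the theta coefficients with a mask -/
theorem t3_R_asymp : ∃ C : ℝ, 0 ≤ C ∧ ∀ (a : ℝ) (h : O), 0 < a → a ≤ 1 → h ≠ 0 → ∀ M : ℝ, 0 < M →
    ‖t3_R a h M - ((rho0 * Phi h : ℝ) : ℂ) * LNt a 1 * M‖ ≤ C * dn h * M ^ (5 / 6 : ℝ) := by
  obtain ⟨C, hC, H⟩ := t3_err
  have s1 : Summable fun e : Pr => nm e ^ (-(5 / 3 : ℝ)) := (summable_nm_rpow (by norm_num)).Pr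
  have s2 : Summable fun e : Pr => nm e ^ (-(3 / 2 : ℝ)) := (summable_nm_rpow (by norm_num)).Pr
  have n1 : 0 ≤ ∑' e : Pr, nm e ^ (-(5 / 3 : ℝ)) := tsum_nonneg fun _ => Real.rpow_nonneg (nm_nonneg _) _
  have n2 : 0 ≤ ∑' e : Pr, nm e ^ (-(3 / 2 : ℝ)) := tsum_nonneg fun _ => Real.rpow_nonneg (nm_nonneg _) _
  refine ⟨C * (∑' e : Pr, nm e ^ (-(5 / 3 : ℝ))) * ∑' e : Pr, nm e ^ (-(3 / 2 : ℝ)), by positivity,
    fun a h ha h1 hh M hM => ?_⟩
  have hd := dn_nonneg h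
  have hq : ∀ (k : ℕ) (n : Pr), 1 ≤ nm n ^ k := fun k n => one_le_pow₀ (one_le_nm (Prim.ne_zero n.2))
  have A1 := t3_step (by positivity) (H a h ha h1 hh)
    (w := fun e : Pr => if IsCoprime (e : O) h then mu e else 0) (hq 2) s1 fun e => by
      rw [← Real.rpow_natCast, ← Real.rpow_mul (nm_nonneg _),
        show ((2 : ℕ) : ℝ) * -(5 / 6) = -(5 / 3) by norm_num]
      refine mul_le_of_le_one_left (Real.rpow_nonneg (nm_nonneg _) _) ?_
      split_ifs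
      · exact norm_mu_le _
      · simp
  have A2 := t3_step (F := t3_Q a h) (E := C * dn h * ∑' e : Pr, nm e ^ (-(5 / 3 : ℝ))) (by positivity)
    (fun M hM => by rw [t3_sieve ha hM h]; exact A1 M hM)
    (w := fun b : Pr => if IsCoprime (b : O) h then (nm b : ℂ) else 0) (hq 3) s2 (fun b => by
      have h2 : 0 < nm (b : O) := nm_pos (Prim.ne_zero b.2)
      rw [← Real.rpow_natCast, ← Real.rpow_mul h2.le]
      split_ifs
      · rw [Complex.norm_real, Real.norm_of_nonneg h2.le, ← Real.rpow_one_add' h2.le (by norm_num)]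
        exact le_of_eq (by norm_num)
      · rw [norm_zero, zero_mul]; positivity) M hM
  rw [← t3_cubes ha hM h, mul_assoc (((rho0 * Phi h : ℝ) : ℂ) * LNt a 1), t3_moeb, mul_one] at A2
  exact A2.trans_eq (by ring)

/-- the summand of the core sum -/
noncomputable def t3_w (a A : ℝ) (x : O) : ℝ := LW a A (nm x) * n6 x ^ 2 * ‖TC x‖ ^ 2

theorem t3_n6 (x : O) : n6 x ^ 2 = nm x ^ (-(1 / 3) : ℝ) := by
  rw [n6, ← Real.rpow_natCast, ← Real.rpow_mul (nm_nonneg _)]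
  norm_num

theorem t3_w_summable {a A : ℝ} (ha : 0 < a) (hA : 0 < A) : Summable fun x : Pr => t3_w a A x := by
  refine Summable.of_nonneg_of_le (fun x => ?_) (fun x => ?_) (summable_LW ha hA 0).Pr
  · exact mul_nonneg (mul_nonneg (LW_pos _ _ _).le (sq_nonneg _)) (sq_nonneg _)
  · have hx : 0 < nm (x : O) := nm_pos (Prim.ne_zero x.2)
    have h1 : n6 x * ‖TC x‖ ≤ 1 := by
      calc _ ≤ n6 x * nm (x : O) ^ (1 / 6 : ℝ) := mul_le_mul_of_nonneg_left (norm_TC_le _) (n6_nonneg _)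
        _ = 1 := by rw [n6, ← Real.rpow_add hx]; norm_num
    have h2 : (n6 x * ‖TC x‖) ^ 2 ≤ 1 := pow_le_one₀ (mul_nonneg (n6_nonneg _) (norm_nonneg _)) h1
    rw [t3_w, Real.rpow_zero, one_mul, mul_assoc, ← mul_pow]
    exact mul_le_of_le_one_right (LW_pos _ _ _).le h2

theorem t3_core : ∃ C : ℝ, 0 ≤ C ∧ ∀ (a A : ℝ) (h : O), 0 < a → a ≤ 1 → 0 < A → h ≠ 0 →
    ‖(∑' x : Pr, if IsCoprime (x : O) h then (t3_w a A x : ℂ) else 0) -
      ((rho0 * A ^ (2 / 3 : ℝ) : ℝ) : ℂ) * LNt a (2 / 3) * Phi h‖ ≤ C * dn h * √A := by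
  obtain ⟨C, hC, H⟩ := t3_R_asymp
  refine ⟨C, hC, fun a A h ha h1 hA hh => ?_⟩
  have hM : 0 < A * Real.exp (a ^ 2 * -(1 / 3)) := by positivity
  have h2 := H a h ha h1 hh _ hM
  set κ : ℝ := A ^ (-(1 / 3) : ℝ) * Real.exp (a ^ 2 * (-(1 / 3)) ^ 2 / 2) with hκ
  have hκ0 : 0 < κ := by positivity
  have e1 : (∑' x : Pr, if IsCoprime (x : O) h then (t3_w a A x : ℂ) else 0) =
      κ * t3_R a h (A * Real.exp (a ^ 2 * -(1 / 3))) := by
    rw [t3_R, ← tsum_mul_left]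
    refine tsum_congr fun x => ?_
    split_ifs
    · rw [t3_w, t3_n6, LW_mul_rpow ha hA (nm_pos (Prim.ne_zero x.2)), ← hκ]
      push_cast
      ring
    · rw [mul_zero]
  have e2 : ((rho0 * A ^ (2 / 3 : ℝ) : ℝ) : ℂ) * LNt a (2 / 3) * Phi h =
      κ * (((rho0 * Phi h : ℝ) : ℂ) * LNt a 1 * (A * Real.exp (a ^ 2 * -(1 / 3)) : ℝ)) := by
    have e3 : A ^ (2 / 3 : ℝ) = A ^ (-(1 / 3) : ℝ) * A := by
      rw [← Real.rpow_add_one hA.ne']; norm_num
    have e4 : Complex.exp ((a : ℂ) ^ 2 * (2 / 3) ^ 2 / 2) = Complex.exp ((a : ℂ) ^ 2 * (-(1 / 3)) ^ 2 / 2) *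
        Complex.exp ((a : ℂ) ^ 2 * 1 ^ 2 / 2) * Complex.exp ((a : ℂ) ^ 2 * -(1 / 3)) := by
      rw [← Complex.exp_add, ← Complex.exp_add]
      congr 1
      ring
    rw [e3, hκ, LNt, LNt, e4]
    push_cast
    ring
  rw [e1, e2, ← mul_sub, norm_mul, Complex.norm_real, Real.norm_of_nonneg hκ0.le]
  refine (mul_le_mul_of_nonneg_left h2 hκ0.le).trans ?_
  have e5 : κ * (A * Real.exp (a ^ 2 * -(1 / 3))) ^ (5 / 6 : ℝ) ≤ √A := by
    rw [Real.mul_rpow hA.le (Real.exp_pos _).le, ← Real.exp_mul, hκ, mul_mul_mul_comm, ← Real.exp_add,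
      ← Real.rpow_add hA, Real.sqrt_eq_rpow, show (-(1 / 3) + 5 / 6 : ℝ) = 1 / 2 by norm_num]
    exact mul_le_of_le_one_right (by positivity) (Real.exp_le_one_iff.2 (by nlinarith [sq_nonneg a]))
  have hd := dn_nonneg h
  calc _ = C * dn h * (κ * (A * Real.exp (a ^ 2 * -(1 / 3))) ^ (5 / 6 : ℝ)) := by ring
    _ ≤ _ := by gcongr

/-- opening the square -/
theorem t3_open (a A X : ℝ) (γ : O → ℂ) (x : O) :
    ((LW a A (nm x) * ‖Md γ X x‖ ^ 2 : ℝ) : ℂ) = ∑ b₁ ∈ ball X, ∑ b₂ ∈ ball X,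
      (cP : ℂ) ^ 2 * (γ b₁ * conj (γ b₂) * ((n6 b₁ * n6 b₂ : ℝ) : ℂ)) *
        if IsCoprime x (b₁ * b₂) then (t3_w a A x : ℂ) else 0 := by
  have e1 : LW a A (nm x) * ‖Md γ X x‖ ^ 2 = cP ^ 2 * t3_w a A x * ‖YM γ X x‖ ^ 2 := by
    rw [Md, norm_mul, norm_mul, Complex.norm_conj, Complex.norm_real, t3_w, mul_pow, mul_pow,
      Real.norm_eq_abs, sq_abs]
    ring
  rw [e1]
  push_cast
  rw [← Complex.mul_conj', YM, map_sum, Finset.sum_mul_sum, Finset.mul_sum]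
  refine Finset.sum_congr rfl fun b₁ _ => ?_
  rw [Finset.mul_sum]
  refine Finset.sum_congr rfl fun b₂ _ => ?_
  rw [IsCoprime.mul_right_iff, isCoprime_comm (x := x), isCoprime_comm (x := x)]
  by_cases h1 : IsCoprime b₁ x <;> by_cases h2 : IsCoprime b₂ x <;> simp [h1, h2]
  ring

theorem stT3 : StT3 := by
  obtain ⟨C, hC, H⟩ := t3_core
  refine ⟨cP ^ 2 * C, fun a A B X γ ha h1 hA hγ => ?_⟩
  have hA0 : 0 < A := one_pos.trans_le hA
  have hs : ∀ (c : ℂ) (h : O), Summable fun x : Pr =>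
      c * if IsCoprime (x : O) h then (t3_w a A x : ℂ) else 0 := by
    intro c h
    refine Summable.mul_left c (Summable.of_norm_bounded (t3_w_summable ha hA0).norm fun x => ?_)
    split_ifs
    · rw [Complex.norm_real]
    · rw [norm_zero]; exact norm_nonneg _
  rw [Complex.ofReal_tsum, tsum_congr fun x : Pr => t3_open a A X γ x,
    Summable.tsum_finsetSum fun _ _ => summable_sum fun _ _ => hs _ _, MN, Finset.mul_sum,
    ← Finset.sum_sub_distrib, sq (∑ b ∈ ball X, _), Finset.sum_mul_sum, Finset.mul_sum]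
  refine norm_sum_le_of_le _ fun b₁ _ => ?_
  rw [Summable.tsum_finsetSum fun _ _ => hs _ _, Finset.mul_sum, ← Finset.sum_sub_distrib,
    Finset.mul_sum]
  refine norm_sum_le_of_le _ fun b₂ _ => ?_
  rw [tsum_mul_left]
  by_cases h₁ : γ b₁ = 0
  · simp [h₁]
  by_cases h₂ : γ b₂ = 0
  · simp [h₂]
  have hh : b₁ * b₂ ≠ 0 := mul_ne_zero (hγ _ h₁).1.ne_zero (hγ _ h₂).1.ne_zero
  have h3 := (H a A _ ha h1 hA0 hh).trans (mul_le_mul_of_nonneg_right
    (mul_le_mul_of_nonneg_left (dn_mul_le b₁ b₂) hC) (Real.sqrt_nonneg A))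
  have k₁ := n6_nonneg b₁
  have k₂ := n6_nonneg b₂
  have e : ∀ T : ℂ, (cP : ℂ) ^ 2 * (γ b₁ * conj (γ b₂) * ((n6 b₁ * n6 b₂ : ℝ) : ℂ)) * T -
      ((cP ^ 2 * rho0 * A ^ (2 / 3 : ℝ) : ℝ) : ℂ) * LNt a (2 / 3) *
        (γ b₁ * conj (γ b₂) * ((n6 b₁ * n6 b₂ * Phi (b₁ * b₂) : ℝ) : ℂ)) =
      ((cP ^ 2 * (n6 b₁ * n6 b₂) : ℝ) : ℂ) * (γ b₁ * conj (γ b₂)) *
        (T - ((rho0 * A ^ (2 / 3 : ℝ) : ℝ) : ℂ) * LNt a (2 / 3) * Phi (b₁ * b₂)) := by
    intro T
    push_cast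
    ring
  rw [e, norm_mul, norm_mul, norm_mul, Complex.norm_conj, Complex.norm_real,
    Real.norm_of_nonneg (by positivity)]
  refine (mul_le_mul_of_nonneg_left h3 (by positivity)).trans_eq (by ring)

end Crest.Agent.R12
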